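import Vale.Agent.P182.H578.Der
import Mathlib.Order.Filter.Cofinite

/-!
# Twisted commutants

For a family `S` without common kernel the twisted commutants `{M | M S_a = x S_a M}` are
independent, so that only finitely many of them are nonzero.  Hence the centrality of `D` in the
commutant of the family `(m₀ + m₁ D)² S_a` holds off finitely many lines `(m₀, m₁)`.
-/

namespace Vale.Agent.P182.H746

open Module Filter Vale.Agent.P182.H533 Vale.Agent.P182.H578

section twist

variable {L E ι : Type*} [Field L] [AddCommGroup E] [Module L E]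

/-- the twisted commutants -/
def TC (S : ι → End L E) (x : L) : Submodule L (End L E) where
  carrier := {M | ∀ a, M * S a = x • (S a * M)}
  zero_mem' := fun a => by rw [zero_mul, mul_zero, smul_zero]
  add_mem' := fun {M N} hM hN a => by rw [add_mul, hM a, hN a, mul_add, smul_add]
  smul_mem' := fun c M hM a => by
    rw [smul_mul_assoc, hM a, mul_smul_comm, smul_comm]

theorem mem_TC {S : ι → End L E} {x : L} {M : End L E} :
    M ∈ TC S x ↔ ∀ a, M * S a = x • (S a * M) := Iff.rfl

variable {S : ι → End L E}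

/-- multiplication by the parameter -/
theorem sum_smul_TC (hker : ∀ v : E, (∀ a, S a v = 0) → v = 0) {s : Finset L}
    {N : L → End L E} (hN : ∀ x ∈ s, N x ∈ TC S x) (h : ∑ x ∈ s, N x = 0) :
    ∑ x ∈ s, x • N x = 0 := by
  refine LinearMap.ext fun v => ?_
  rw [LinearMap.zero_apply]
  refine hker _ fun a => ?_
  have h1 : S a * ∑ x ∈ s, x • N x = 0 := by
    rw [Finset.mul_sum]
    have h2 : (∑ x ∈ s, N x) * S a = 0 := by rw [h, zero_mul]
    rw [Finset.sum_mul] at h2
    rw [← h2]
    refine Finset.sum_congr rfl fun x hx => ?_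
    rw [mul_smul_comm, hN x hx a]
  exact LinearMap.congr_fun h1 v

/-- **Independence of the twisted commutants.** -/
theorem indep_TC (hker : ∀ v : E, (∀ a, S a v = 0) → v = 0) (s : Finset L) :
    ∀ N : L → End L E, (∀ x ∈ s, N x ∈ TC S x) → ∑ x ∈ s, N x = 0 → ∀ x ∈ s, N x = 0 := by
  classical
  induction s using Finset.induction_on with
  | empty => intro N _ _ x hx; simp at hx
  | insert y s hy ih =>
    intro N hN h
    have h1 := sum_smul_TC hker hN h
    have h2 : ∑ x ∈ s, (x - y) • N x = 0 := by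
      have h3 : ∑ x ∈ insert y s, (x - y) • N x = 0 := by
        simp only [sub_smul, Finset.sum_sub_distrib]
        rw [h1, ← Finset.smul_sum, h, smul_zero, sub_zero]
      rwa [Finset.sum_insert hy, sub_self, zero_smul, zero_add] at h3
    have h4 := ih (fun x => (x - y) • N x)
      (fun x hx => Submodule.smul_mem _ _ (hN x (Finset.mem_insert_of_mem hx))) h2
    have h5 : ∀ x ∈ s, N x = 0 := by
      intro x hx
      refine (smul_eq_zero.mp (h4 x hx)).resolve_left (sub_ne_zero.2 ?_)
      rintro rfl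
      exact hy hx
    intro x hx
    rcases Finset.mem_insert.mp hx with rfl | hx
    · rw [Finset.sum_insert hy, Finset.sum_eq_zero h5, add_zero] at h
      exact h
    · exact h5 x hx

/-- **Only finitely many twisted commutants are nonzero.** -/
theorem finite_TC [FiniteDimensional L E] (hker : ∀ v : E, (∀ a, S a v = 0) → v = 0) :
    {x : L | ∃ M ∈ TC S x, M ≠ 0}.Finite := by
  classical
  set X : Set L := {x : L | ∃ M ∈ TC S x, M ≠ 0} with hX
  have hch : ∀ x : X, ∃ M ∈ TC S (x : L), M ≠ 0 := fun x => x.2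
  choose M hM hM0 using hch
  have hli : LinearIndependent L M := by
    rw [linearIndependent_iff']
    intro s g hg x hx
    set N : L → End L E := fun y => if h : y ∈ X then g ⟨y, h⟩ • M ⟨y, h⟩ else 0 with hN
    have hNx : ∀ y : X, N y = g y • M y := fun y => by
      simp only [hN, Subtype.coe_prop, dif_pos, Subtype.coe_eta]
    have h1 : ∑ y ∈ s.map (Function.Embedding.subtype _), N y = 0 := by
      rw [Finset.sum_map, ← hg]
      exact Finset.sum_congr rfl fun y _ => hNx y
    have h2 := indep_TC hker (s.map (Function.Embedding.subtype _)) N (fun y hy => by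
      obtain ⟨z, -, rfl⟩ := Finset.mem_map.mp hy
      rw [show (Function.Embedding.subtype _ z) = (z : L) from rfl, hNx]
      exact Submodule.smul_mem _ _ (hM z)) h1 x
      (Finset.mem_map.mpr ⟨x, hx, rfl⟩)
    rw [hNx] at h2
    exact (smul_eq_zero.mp h2).resolve_right (hM0 x)
  have : Finite X := hli.finite
  exact Set.toFinite X

end twist

section central

variable {L E ι κ : Type*} [Field L] [AddCommGroup E] [Module L E] [Fintype κ]
  {S : ι → End L E} {D : End L E} {P : κ → End L E} {d : κ → L}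

/-- the operator `m₀ + m₁ D` on the blocks -/
theorem lin_mul_P (h : Diag D P d) (m0 m1 : L) (k : κ) :
    (m0 • (1 : End L E) + m1 • D) * P k = (m0 + m1 * d k) • P k := by
  rw [add_mul, smul_mul_assoc, one_mul, smul_mul_assoc, h.D_mul, smul_smul, ← add_smul]

theorem P_mul_lin (h : Diag D P d) (m0 m1 : L) (k : κ) :
    P k * (m0 • (1 : End L E) + m1 • D) = (m0 + m1 * d k) • P k := by
  rw [mul_add, mul_smul_comm, mul_one, mul_smul_comm, h.mul_D, smul_smul, ← add_smul]

theorem lin_isUnit (h : Diag D P d) {m0 m1 : L} (hu : ∀ k, m0 + m1 * d k ≠ 0) :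
    IsUnit (m0 • (1 : End L E) + m1 • D) := by
  set g' : End L E := ∑ k, (m0 + m1 * d k)⁻¹ • P k with hg'
  have h1 : (m0 • (1 : End L E) + m1 • D) * g' = 1 := by
    rw [hg', Finset.mul_sum]
    refine (Finset.sum_congr rfl fun k _ => ?_).trans h.sum
    rw [mul_smul_comm, lin_mul_P h, smul_smul, inv_mul_cancel₀ (hu k), one_smul]
  have h2 : g' * (m0 • (1 : End L E) + m1 • D) = 1 := by
    rw [hg', Finset.sum_mul]
    refine (Finset.sum_congr rfl fun k _ => ?_).trans h.sum
    rw [smul_mul_assoc, P_mul_lin h, smul_smul, inv_mul_cancel₀ (hu k), one_smul]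
  exact ⟨⟨_, g', h1, h2⟩, rfl⟩

/-- the blocks of a commuting operator are twisted homomorphisms -/
theorem block_TC (h : Diag D P d) (hPS : ∀ i a, P i * S a = S a * P i) {m0 m1 : L}
    {M : End L E}
    (hM : ∀ a, M * ((m0 • 1 + m1 • D) ^ 2 * S a) = (m0 • 1 + m1 • D) ^ 2 * S a * M) {k l : κ}
    (hl : m0 + m1 * d l ≠ 0) :
    P k * M * P l ∈ TC S (((m0 + m1 * d k) / (m0 + m1 * d l)) ^ 2) := by
  intro a
  set g : End L E := m0 • 1 + m1 • D with hg
  have e1 : g ^ 2 * S a * P l = (m0 + m1 * d l) ^ 2 • (P l * S a) := by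
    have f1 : g ^ 2 * P l = (m0 + m1 * d l) ^ 2 • P l := by
      rw [sq, mul_assoc, lin_mul_P h, mul_smul_comm, lin_mul_P h, smul_smul, ← sq]
    rw [mul_assoc, ← hPS, ← mul_assoc, f1, smul_mul_assoc]
  have e2 : P k * (g ^ 2 * S a) = (m0 + m1 * d k) ^ 2 • (S a * P k) := by
    have f1 : P k * g ^ 2 = (m0 + m1 * d k) ^ 2 • P k := by
      rw [sq, ← mul_assoc, P_mul_lin h, smul_mul_assoc, P_mul_lin h, smul_smul, ← sq]
    rw [← mul_assoc, f1, smul_mul_assoc, hPS]
  have e3 : P k * (M * (g ^ 2 * S a)) * P l = P k * (g ^ 2 * S a * M) * P l := by rw [hM a]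
  have e4 : P k * (M * (g ^ 2 * S a)) * P l = (m0 + m1 * d l) ^ 2 • (P k * M * P l * S a) := by
    calc P k * (M * (g ^ 2 * S a)) * P l = P k * M * (g ^ 2 * S a * P l) := by
          noncomm_ring
      _ = _ := by rw [e1, mul_smul_comm, ← mul_assoc (P k * M)]
  have e5 : P k * (g ^ 2 * S a * M) * P l = (m0 + m1 * d k) ^ 2 • (S a * (P k * M * P l)) := by
    calc P k * (g ^ 2 * S a * M) * P l = P k * (g ^ 2 * S a) * (M * P l) := by
          noncomm_ring
      _ = _ := by
        rw [e2, smul_mul_assoc]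
        congr 1
  rw [e4, e5] at e3
  have h0 : (m0 + m1 * d l) ^ 2 ≠ 0 := pow_ne_zero 2 hl
  calc P k * M * P l * S a
      = ((m0 + m1 * d l) ^ 2)⁻¹ • ((m0 + m1 * d l) ^ 2 • (P k * M * P l * S a)) := by
        rw [smul_smul, inv_mul_cancel₀ h0, one_smul]
    _ = _ := by
        rw [e3, smul_smul, div_pow, div_eq_mul_inv, mul_comm]

variable [FiniteDimensional L E]

/-- **Centrality off finitely many lines.** -/
theorem central_lines (hker : ∀ v : E, (∀ a, S a v = 0) → v = 0) (h : Diag D P d)
    (hPS : ∀ i a, P i * S a = S a * P i) :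
    ∃ B : Set (L × L), B.Finite ∧ (∀ b ∈ B, b ≠ 0) ∧ ∀ m0 m1 : L,
      (∀ b ∈ B, b.1 * m0 + b.2 * m1 ≠ 0) →
      (∀ k, m0 + m1 * d k ≠ 0) ∧ IsUnit (m0 • (1 : End L E) + m1 • D) ∧
      ∀ M : End L E,
        (∀ a, M * ((m0 • 1 + m1 • D) ^ 2 * S a) = (m0 • 1 + m1 • D) ^ 2 * S a * M) →
        M * D = D * M := by
  classical
  set X : Set L := {x : L | ∃ M ∈ TC S x, M ≠ 0} with hX
  have hXf : X.Finite := finite_TC hker
  set Y : Set L := {y : L | y ^ 2 ∈ X} with hY
  have hYf : Y.Finite := by
    refine Set.Finite.preimage' hXf fun b _ => ?_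
    by_cases hb : ∃ c : L, c ^ 2 = b
    · obtain ⟨c, rfl⟩ := hb
      refine Set.Finite.subset (Set.toFinite {c, -c}) fun y hy => ?_
      have h1 : y ^ 2 = c ^ 2 := hy
      rcases sq_eq_sq_iff_eq_or_eq_neg.mp h1 with h2 | h2
      · exact Or.inl h2
      · exact Or.inr h2
    · convert Set.finite_empty (α := L)
      ext y
      simp only [Set.mem_preimage, Set.mem_singleton_iff, Set.mem_empty_iff_false, iff_false]
      exact fun hy => hb ⟨y, hy⟩
  set B : Set (L × L) := Set.range (fun k : κ => ((1 : L), d k)) ∪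
    {b | ∃ k l : κ, k ≠ l ∧ ∃ y ∈ Y, b = (1 - y, d k - y * d l)} with hB
  refine ⟨B, ?_, ?_, ?_⟩
  · refine Set.Finite.union (Set.finite_range _) ?_
    have h1 : {b : L × L | ∃ k l : κ, k ≠ l ∧ ∃ y ∈ Y, b = (1 - y, d k - y * d l)} ⊆
        Set.image (fun z : (κ × κ) × L => (1 - z.2, d z.1.1 - z.2 * d z.1.2))
          (Set.univ ×ˢ Y) := by
      rintro b ⟨k, l, -, y, hy, rfl⟩
      exact ⟨((k, l), y), ⟨Set.mem_univ _, hy⟩, rfl⟩
    exact Set.Finite.subset (Set.Finite.image _ (Set.Finite.prod Set.finite_univ hYf)) h1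
  · rintro b (⟨k, rfl⟩ | ⟨k, l, hkl, y, -, rfl⟩) h0
    · exact one_ne_zero (congrArg Prod.fst h0)
    · have h1 : 1 - y = 0 := congrArg Prod.fst h0
      have h2 : d k - y * d l = 0 := congrArg Prod.snd h0
      rw [← sub_eq_zero.mp h1, one_mul, sub_eq_zero] at h2
      exact hkl (h.inj h2)
  · intro m0 m1 hm
    have hu : ∀ k, m0 + m1 * d k ≠ 0 := by
      intro k h0
      refine hm (1, d k) (Or.inl ⟨k, rfl⟩) ?_
      rw [← h0]
      ring
    refine ⟨hu, lin_isUnit h hu, fun M hM => ?_⟩
    have hoff : ∀ k l, k ≠ l → P k * M * P l = 0 := by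
      intro k l hkl
      by_contra hne
      have h1 := block_TC h hPS hM (k := k) (hu l)
      refine hm (1 - (m0 + m1 * d k) / (m0 + m1 * d l),
        d k - (m0 + m1 * d k) / (m0 + m1 * d l) * d l)
        (Or.inr ⟨k, l, hkl, _, ⟨_, h1, hne⟩, rfl⟩) ?_
      have h2 := hu l
      field_simp
      ring
    apply h.comm_of_comm
    intro i
    have h1 : M * P i = P i * M * P i := by
      conv_lhs => rw [← one_mul (M * P i), ← h.sum, Finset.sum_mul, Finset.sum_eq_single i
        (fun j _ hj => by rw [← mul_assoc, hoff j i hj])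
        (fun hi => absurd (Finset.mem_univ _) hi), ← mul_assoc]
    have h2 : P i * M = P i * M * P i := by
      conv_lhs => rw [← mul_one (P i * M), ← h.sum, Finset.mul_sum, Finset.sum_eq_single i
        (fun j _ hj => hoff i j (Ne.symm hj))
        (fun hi => absurd (Finset.mem_univ _) hi)]
    rw [h1, ← h2]

end central

section mu

variable {L : Type*} [Field L]

/-- the second base point: `μ₀ + μ₁ a = -(1 + x a)`, `μ₀ + μ₁ b = 1 + x b` -/
def mu0 (a b x : L) : L := (a + b + 2 * x * a * b) / (a - b)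

/-- the second base point -/
def mu1 (a b x : L) : L := -(2 + x * (a + b)) / (a - b)

theorem mu_left {a b : L} (hab : a ≠ b) (x : L) :
    mu0 a b x + mu1 a b x * a = -(1 + x * a) := by
  have h := sub_ne_zero.2 hab
  unfold mu0 mu1
  field_simp
  ring

theorem mu_right {a b : L} (hab : a ≠ b) (x : L) :
    mu0 a b x + mu1 a b x * b = 1 + x * b := by
  have h := sub_ne_zero.2 hab
  unfold mu0 mu1
  field_simp
  ring

/-- an affine function which is not zero has at most one root -/
theorem finite_affine {p r : L} (h : ¬ (p = 0 ∧ r = 0)) : {x : L | p + r * x = 0}.Finite := by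
  by_cases hr : r = 0
  · convert Set.finite_empty (α := L)
    ext x
    simp only [Set.mem_empty_iff_false, iff_false]
    intro (hx : p + r * x = 0)
    rw [hr, zero_mul, add_zero] at hx
    exact h ⟨hx, hr⟩
  · refine Set.Finite.subset (Set.finite_singleton (-p / r)) fun x hx => ?_
    have h1 : p + r * x = 0 := hx
    rw [Set.mem_singleton_iff, eq_div_iff hr]
    linear_combination h1

/-- **Almost all parameters are good for both base points.** -/
theorem eventually_avoid {a b : L} (hab : a ≠ b) {B : Set (L × L)} (hB : B.Finite)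
    (hB0 : ∀ b ∈ B, b ≠ 0) :
    ∀ᶠ x : L in cofinite, (∀ c ∈ B, c.1 * 1 + c.2 * x ≠ 0) ∧
      ∀ c ∈ B, c.1 * mu0 a b x + c.2 * mu1 a b x ≠ 0 := by
  have h0 := sub_ne_zero.2 hab
  refine Filter.Eventually.and ?_ ?_
  · rw [Filter.eventually_all_finite hB]
    intro c hc
    have h1 : {x : L | c.1 + c.2 * x = 0}.Finite := finite_affine fun h =>
      hB0 c hc (Prod.ext h.1 h.2)
    refine (h1.eventually_cofinite_notMem).mono fun x hx h2 => hx ?_
    rw [mul_one] at h2
    exact h2
  · rw [Filter.eventually_all_finite hB]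
    intro c hc
    have h1 : {x : L | (c.1 * (a + b) - 2 * c.2) + (2 * c.1 * a * b - c.2 * (a + b)) * x = 0}.Finite := by
      refine finite_affine fun h => hB0 c hc ?_
      obtain ⟨h1, h2⟩ := h
      have e1 : c.1 * (a - b) ^ 2 = 0 := by linear_combination (a + b) * h1 - 2 * h2
      have e2 : c.2 * (a - b) ^ 2 = 0 := by linear_combination (2 * a * b) * h1 - (a + b) * h2
      have h3 : (a - b) ^ 2 ≠ 0 := pow_ne_zero 2 h0
      exact Prod.ext ((mul_eq_zero.mp e1).resolve_right h3) ((mul_eq_zero.mp e2).resolve_right h3)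
    refine (h1.eventually_cofinite_notMem).mono fun x hx h2 => hx ?_
    show _ + _ = 0
    unfold mu0 mu1 at h2
    field_simp at h2
    linear_combination h2

/-- the squares of the ratios take infinitely many values -/
theorem infinite_ratio {a b : L} (hab : a ≠ b) {X : Set L} (hX : X.Infinite)
    (hb : ∀ x ∈ X, 1 + x * b ≠ 0) :
    ((fun x : L => ((1 + x * a) / (1 + x * b)) ^ 2) '' X).Infinite := by
  intro hf
  apply hX
  have hinj : Set.InjOn (fun x : L => (1 + x * a) / (1 + x * b)) X := by
    intro x hx y hy hxy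
    have h1 := hb x hx
    have h2 := hb y hy
    have h3 : (1 + x * a) * (1 + y * b) = (1 + y * a) * (1 + x * b) := by
      have := hxy
      simp only at this
      rwa [div_eq_div_iff h1 h2] at this
    have h4 : (x - y) * (a - b) = 0 := by linear_combination h3
    rcases mul_eq_zero.mp h4 with h5 | h5
    · exact sub_eq_zero.mp h5
    · exact absurd (sub_eq_zero.mp h5) hab
  have h1 : ((fun x : L => (1 + x * a) / (1 + x * b)) '' X).Finite := by
    have h2 : {y : L | y ^ 2 ∈ (fun x : L => ((1 + x * a) / (1 + x * b)) ^ 2) '' X}.Finite := by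
      refine Set.Finite.preimage' hf fun c _ => ?_
      by_cases hc : ∃ e : L, e ^ 2 = c
      · obtain ⟨e, rfl⟩ := hc
        refine Set.Finite.subset (Set.toFinite {e, -e}) fun y hy => ?_
        have h1 : y ^ 2 = e ^ 2 := hy
        rcases sq_eq_sq_iff_eq_or_eq_neg.mp h1 with h2 | h2
        · exact Or.inl h2
        · exact Or.inr h2
      · convert Set.finite_empty (α := L)
        ext y
        simp only [Set.mem_preimage, Set.mem_singleton_iff, Set.mem_empty_iff_false, iff_false]
        exact fun hy => hc ⟨y, hy⟩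
    refine h2.subset ?_
    rintro _ ⟨x, hx, rfl⟩
    exact ⟨x, hx, rfl⟩
  exact Set.Finite.of_finite_image h1 hinj

end mu

end Vale.Agent.P182.H746
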